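import Vale.Agent.H22.BBL.OneDim2
import Vale.Agent.H61.BBLInd

/-!
# The Borell-Brascamp-Lieb inequality in transport form on `EuclideanSpace ℝ (Fin n)`

Bridge between the one-dimensional case (`bblProp_real`) and the induction on the dimension
(`Vale.Agent.H61.BBL.BBLProp.euclidean`).
-/

namespace Vale.Agent.H22

open MeasureTheory

theorem bblOmega_eq_Omega (n : ℕ) (p q : ℝ) : bblOmega n p q = Vale.Agent.H61.BBL.Omega n p q :=
  rfl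

/-- The one-dimensional property in the shape used by the induction. -/
theorem bbl_one : Vale.Agent.H61.BBL.BBLProp ℝ 1 := by
  intro f0 f1 a b h hf0m hf1m hf0 hf1 hi0 hi1 hmass ham hbm hab hbb hhm hyp
  obtain ⟨Ma, hMa⟩ := hab
  obtain ⟨Mb, hMb⟩ := hbb
  exact bblProp_real f0 f1 a b h (max Ma Mb) hf0m hf1m ham hbm hhm hf0 hf1 hi0 hi1
    (fun x => (hMa x).trans (le_max_left _ _)) (fun x => (hMb x).trans (le_max_right _ _))
    hmass hyp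

/-- **The Borell-Brascamp-Lieb inequality in transport form** on `EuclideanSpace ℝ (Fin n)`,
`n ≥ 1`. -/
theorem bbl_euclideanProp (n : ℕ) (hn : 1 ≤ n) :
    Vale.Agent.H61.BBL.BBLProp (EuclideanSpace ℝ (Fin n)) n :=
  Vale.Agent.H61.BBL.BBLProp.euclidean bbl_one n hn

/-- Real-valued form: if `f₀, f₁ ≥ 0` are integrable with equal integrals, `a, b` are bounded,
`h ≥ 0` is integrable and `a x + b x' ≤ h ((x + x')/2) * Omega n (f₀ x) (f₁ x')` whenever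
`f₀ x > 0`, `f₁ x' > 0`, then `∫ a f₀ + ∫ b f₁ ≤ ∫ h`. -/
theorem bbl_euclidean {n : ℕ} (hn : 1 ≤ n) (f₀ f₁ a b h : EuclideanSpace ℝ (Fin n) → ℝ) (C : ℝ)
    (hf₀m : Measurable f₀) (hf₁m : Measurable f₁) (ham : Measurable a) (hbm : Measurable b)
    (hhm : Measurable h) (hf₀ : ∀ x, 0 ≤ f₀ x) (hf₁ : ∀ x, 0 ≤ f₁ x)
    (hi₀ : Integrable f₀) (hi₁ : Integrable f₁) (hh : ∀ x, 0 ≤ h x) (hhi : Integrable h)
    (haC : ∀ x, |a x| ≤ C) (hbC : ∀ x, |b x| ≤ C) (hmass : ∫ x, f₀ x = ∫ x, f₁ x)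
    (hyp : ∀ x x', 0 < f₀ x → 0 < f₁ x' →
      a x + b x' ≤ h ((1 / 2 : ℝ) • (x + x')) * bblOmega n (f₀ x) (f₁ x')) :
    (∫ x, a x * f₀ x) + (∫ x, b x * f₁ x) ≤ ∫ x, h x :=
  (bbl_euclideanProp n hn).real hf₀m hf₁m hf₀ hf₁ hi₀ hi₁ hmass ham hbm ⟨C, haC⟩ ⟨C, hbC⟩ hhm hh
    hhi hyp

end Vale.Agent.H22
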